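import Vale.Agent.P195.ResX.OpsTab
import Vale.Agent.P195.BRes.Exact

/-!
# P195: exactness of the operators of the resolution

The results of `BRes/Exact` at every vertex of the window and one level above, for `N ≥ 4`.
-/

noncomputable section

namespace Vale.Agent.P195.Res

variable {N : ℕ}

theorem coefT_eq_evl (a : ℕ) (e : BRes.Tb) {α : ℕ} (h1 : 1 ≤ α) (h2 : α + a ≤ N) :
    coefT N a e α = BRes.evl N a e α := by
  rw [BRes.evl_apply, if_pos ⟨h1, h2⟩, BRes.aug_apply, coefT]
  congr 2
  · funext i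
    rw [BRes.gen, show -((N : ℤ) + 1 - i) = (i : ℤ) - N - 1 by ring]
  · ring

/-- Exactness in coordinates. -/
theorem tabExact {a b : ℕ} (hN : 3 ≤ N) (hb : a + b ≤ N) : TabExact N a b where
  zero e he h := BRes.exact_zero hN hb he <| funext fun α => by
    by_cases hα : 1 ≤ α ∧ α + a ≤ N
    · rw [← coefT_eq_evl a e hα.1 hα.2, h α hα.1 hα.2]
      rfl
    · rw [BRes.evl_apply, if_neg hα]
      rfl
  one _ _ _ hu hx hx' h := BRes.exact_one hN hb hu hx hx' h
  two _ _ _ hq hq' hg h h' := BRes.exact_two hN hb hq hq' hg h h'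
  three _ hu h := BRes.exact_three hN hb hu h
  aug_zero u x x' hu hx hx' α h1 h2 := by
    rw [coefT_eq_evl a _ h1 h2, map_add, BRes.evl_v (fun i => (hu i).1),
      BRes.evl_h1 ((hx' 0).2 (by omega)), add_zero]
    rfl

/-- The operators are exact at every vertex of the window and one level above. -/
theorem opsExact (hN : 4 ≤ N) : OpsExact N := fun v h₁ h₁' h₂ h₂' => by
  obtain ⟨a, b⟩ := v
  obtain ⟨a, rfl⟩ := Int.eq_ofNat_of_zero_le h₁
  obtain ⟨b, rfl⟩ := Int.eq_ofNat_of_zero_le h₂
  simp only at h₁' h₂'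
  exact exactAt_of_tab (by omega) (tabExact (by omega) (by omega))

end Vale.Agent.P195.Res
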