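import Vale.Agent.P195.ResX.Copy
import Vale.Agent.P195.Free

/-!
# P195: sums of columns of the extension, as tables

At a vertex of the category a sum of columns is a table over the extension, a map given by a matrix
of arrows is `apM`, and a map to `Y n` is `aug` on the operators.
-/

noncomputable section

namespace Vale.Agent.P195.ResX

open LinCat

variable {ι ι' : Type} [Fintype ι] {g : ι → V} {g' : ι' → V}

theorem freeHom_eq_apM (m : ∀ i, (catA0.free g').X (g i)) (u : V) (x : (catA0.free g).X u) :
    (freeHom g (catA0.free g') m).app u x =
      apM (g := fun i => emb (g i)) (g' := fun j => emb (g' j)) (fun i j => m i j) (emb u) x := by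
  funext j
  rw [freeHom_app]
  refine Eq.trans ?_ (apM_apply (g := fun i => emb (g i)) (g' := fun j => emb (g' j))
    (fun i j => m i j) (v := emb u) x j).symm
  rw [Finset.sum_apply]
  rfl

theorem freeHom_eq_trunc (n : ℤ) (y : ∀ i, (repY0 n).X (g i)) (u : V)
    (x : (catA0.free g).X u) :
    (freeHom g (repY0 n) y).app u x =
      ∑ i, trunc n (emb u) ((ops (g := fun i => emb (g i)) (v := emb u) x i) (y i).1) := by
  rw [freeHom_app]
  rfl

end Vale.Agent.P195.ResX
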