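import Vale.Agent.P195.ResX.Copy
import Vale.Agent.P195.ResGen

/-!
# P195: the complex of operators of the resolution

`bcx N` is the complex over `B` given by `dRow` with the augmentation `eps`; `sX N` holds the
entries of `S` at level zero, and `euler_sX` is `S d = n - E'` there.
-/

noncomputable section

namespace Vale.Agent.P195.Res

open ResR ResR.Gen

variable (N : ℕ)

/-- The operators of the resolution. -/
def bcx : ResX.BCx (nn N) where
  I₀ := G0 N
  I₁ := G1 N
  I₂ := G2 N
  I₃ := G3 N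
  g₀ i := emb (vg0 i)
  g₁ i := emb (vg1 i)
  g₂ i := emb (vg2 i)
  g₃ i := emb (vg3 i)
  d₁ g h := dB N (gen1 g) (gen0 h)
  d₂ g h := dB N (gen2 g) (gen1 h)
  d₃ g h := dB N (gen3 g) (gen2 h)
  y := eps N

theorem inWin_emb (i : V) : ResX.InWin (emb i) := by
  have h1 := i.1.isLt
  have h2 := i.2.isLt
  refine ⟨?_, ?_, ?_, ?_⟩ <;> simp only <;> omega

/-- The entries of `S` from level zero to level one. -/
def sX : ResX.Mx' (bcx N).g₀ (bcx N).g₁ := fun i j =>
  ⟨sRow N (gen0 i) (gen1 j), mem_entry (sRow_mem N (gen0 i))⟩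

variable {N}

theorem gen1_injective : Function.Injective (gen1 (N := N)) := by
  rintro (i | ⟨j, i⟩) (i' | ⟨j', i'⟩) h <;> simp [gen1] at h
  · exact congrArg Sum.inl (Fin.ext h)
  · obtain ⟨rfl, h⟩ := h
    exact congrArg (fun t => Sum.inr (j, t)) (Fin.ext (by omega))

theorem gen1_valid (i : G1 N) : (gen1 i).Valid N := by
  rcases i with i | ⟨j, i⟩ <;> have := i.isLt <;> simp only [gen1, Valid] <;> omega

theorem gen0_valid (i : G0 N) : (gen0 i).Valid N := by
  have := i.isLt
  simp only [gen0, Valid]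
  omega

theorem exists_gen1 {g : Gen} (hv : g.Valid N) (hl : g.lev = 1) : ∃ i : G1 N, gen1 i = g := by
  cases g with
  | r i => exact ⟨.inl ⟨i, by simp only [Valid] at hv; omega⟩, rfl⟩
  | rho j i =>
    simp only [Valid] at hv
    exact ⟨.inr (j, ⟨i - 1, by omega⟩), by simp only [gen1, Gen.rho.injEq, true_and]; omega⟩
  | _ => simp [lev] at hl

theorem v_eq_single {g : Gen} (h : g.Valid N) : v N g = Finsupp.single g 1 := if_pos h

theorem sRow_e_support {k : ℕ} {g : Gen} (h : sRow N (e k) g ≠ 0) : g.Valid N ∧ g.lev = 1 := by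
  by_contra hg
  apply h
  have z : ∀ g' : Gen, g'.lev = 1 → ∀ c : Op, (c • v N g') g = 0 := fun g' hl c => by
    by_cases hv : g'.Valid N
    · rw [v_eq_single hv, Finsupp.smul_apply, Finsupp.single_apply,
        if_neg fun e => hg (by rw [← e]; exact ⟨hv, hl⟩), smul_zero]
    · simp [v, hv]
  have z1 : ∀ g' : Gen, g'.lev = 1 → v N g' g = 0 := fun g' hl => by simpa using z g' hl 1
  simp [sRow, z (r k) rfl, z1 (rho 0 (k - 1)) rfl, z1 (rho 1 k) rfl, Finsupp.sub_apply]
  split_ifs
  · exact z (r 0) rfl D₀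
  · rfl

/-- A row on valid generators of level one, pushed by `d`. -/
theorem d_row_apply {x : Row} (hx : ∀ g, x g ≠ 0 → g.Valid N ∧ g.lev = 1) (h : Gen) :
    d N x h = ∑ i : G1 N, x (gen1 i) * dRow N (gen1 i) h := by
  have e : x = ∑ i : G1 N, Finsupp.single (gen1 i) (x (gen1 i)) := by
    classical
    ext g : 1
    rw [Finsupp.finsetSum_apply]
    by_cases hg : ∃ i, gen1 (N := N) i = g
    · obtain ⟨i, rfl⟩ := hg
      rw [Finset.sum_eq_single i (fun j _ hj => by
        simp [gen1_injective.ne hj]) (by simp)]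
      simp
    · rw [Finset.sum_eq_zero fun j _ => Finsupp.single_eq_of_ne' fun e => hg ⟨j, e⟩]
      by_contra hne
      exact hg (exists_gen1 (hx g hne).1 (hx g hne).2)
  conv_lhs => rw [e]
  rw [map_sum, Finsupp.finsetSum_apply]
  refine Finset.sum_congr rfl fun i _ => ?_
  simp [d, mat, Finsupp.linearCombination_single, gen1_valid]

theorem euler_sX (hN : 2 ≤ N) : ResX.Euler (bcx N) (sX N) := by
  intro (x : G0 N → Op) (j : G0 N)
  show ∑ i : G1 N, (∑ k : G0 N, x k * sRow N (gen0 k) (gen1 i)) * dRow N (gen1 i) (gen0 j) = _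
  simp only [Finset.sum_mul, mul_assoc]
  rw [Finset.sum_comm]
  simp only [← Finset.mul_sum]
  have key : ∀ k : G0 N, ∑ i : G1 N, sRow N (gen0 k) (gen1 i) * dRow N (gen1 i) (gen0 j) =
      if k = j then (nn N : ℚ) • (1 : Op) - eul' (emb (vg0 j)).1 else 0 := by
    intro k
    rw [show gen0 k = e (k.val + 1) from rfl, ← d_row_apply (fun g => sRow_e_support) (gen0 j)]
    have he := euler hN (gen0 k)
    unfold EulerAt at he
    simp only [gen0] at he ⊢
    rw [d_e, map_zero, add_zero, S_e N hN (Nat.succ_ne_zero _)] at he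
    rw [he, v_eq_single (show (e (k.val + 1)).Valid N from gen0_valid k)]
    by_cases hk : k = j
    · subst hk
      rw [if_pos rfl, Finsupp.neg_apply, Finsupp.smul_apply, Finsupp.single_eq_same,
        smul_eq_mul, mul_one]
      simp [eul', vtx, vg0, vV, gen0, nn, sub_eq_add_neg, add_smul]
    · rw [if_neg hk, Finsupp.neg_apply, Finsupp.smul_apply,
        Finsupp.single_eq_of_ne fun e => hk (Fin.ext (by simpa using (Gen.e.inj e).symm)),
        smul_zero, neg_zero]
  simp only [key, mul_ite, mul_zero, Finset.sum_ite_eq', Finset.mem_univ, if_true, mul_sub]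
  rw [mul_smul_comm, mul_one]
  rfl

end Vale.Agent.P195.Res
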