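import Vale.Agent.P195.ResX.WPart
import Vale.Agent.P195.Glue

/-!
# P195: the resolution at a vertex

`RData n` is what the formulas of the resolution supply: per copy matrices over the extension whose
`B`-parts are those of a complex `K`, connecting matrices with values in the bimodule, the first of
them `sigma X`, and the squares on generators. At a vertex of the window where `K` is exact this
gives `GlueData` over `ℚ` (`RData.glue`).
-/

noncomputable section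

namespace Vale.Agent.P195.ResX

/-- Matrices over the extension. -/
abbrev HMx {ι ι' : Type} (g : ι → Vtx) (g' : ι' → Vtx) : Type := ∀ i j, H (g' j) (g i)

/-- Tables over the extension. -/
abbrev HT {ι : Type} (g : ι → Vtx) (v : Vtx) : Type := ∀ i, H (g i) v

/-- Both coordinates of a vertex are in the range of the two categories. -/
def InWin (v : Vtx) : Prop := 0 ≤ v.1 ∧ v.1 ≤ 1 ∧ 0 ≤ v.2 ∧ v.2 ≤ 2

section Tables

variable {ι ι' ι'' : Type} {g : ι → Vtx} {g' : ι' → Vtx} {g'' : ι'' → Vtx} {v : Vtx}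

/-- The `B`-parts. -/
def bp (g : ι → Vtx) (v : Vtx) : HT g v →ₗ[ℚ] ∀ i, B (g i) v :=
  LinearMap.pi fun i => (LinearMap.fst ℚ _ _).comp (LinearMap.proj i)

/-- The tables with values in the bimodule. -/
def wpart (g : ι → Vtx) (v : Vtx) : Submodule ℚ (HT g v) := LinearMap.ker (bp g v)

theorem mem_wpart {x : HT g v} : x ∈ wpart g v ↔ ∀ i, (x i).1 = 0 :=
  ⟨fun h i => congrFun h i, fun h => funext h⟩

/-- The operators of a table. -/
def ops (x : HT g v) : ι → Op := fun i => (x i).1.1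

theorem ops_mem (x : HT g v) : Mem g v (ops x) := fun i => (x i).1.2

theorem mem_wpart_iff_ops {x : HT g v} : x ∈ wpart g v ↔ ops x = 0 :=
  mem_wpart.trans ⟨fun h => funext fun i => by simp [ops, h i],
    fun h i => Subtype.ext (congrFun h i)⟩

theorem ops_sub (x y : HT g v) : ops (x - y) = ops x - ops y := rfl

/-- A table of operators, as a table over the extension. -/
def ofOps {x : ι → Op} (hx : Mem g v x) : HT g v := fun i => (⟨x i, hx i⟩, 0)

theorem ops_ofOps {x : ι → Op} (hx : Mem g v x) : ops (ofOps hx) = x := rfl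

/-- A table of classes, as a table over the extension. -/
def ofW (z : WT g v) : HT g v := fun i => (0, z i)

theorem ofW_mem (z : WT g v) : ofW z ∈ wpart g v := mem_wpart.2 fun _ => rfl

theorem ofW_add (z z' : WT g v) : ofW (z + z') = ofW z + ofW z' :=
  funext fun i => Prod.ext (by simp [ofW]) rfl

theorem eq_ofW {x : HT g v} (h : x ∈ wpart g v) : x = ofW fun i => (x i).2 :=
  funext fun i => Prod.ext (mem_wpart.1 h i) rfl

theorem ofW_inj {z z' : WT g v} (h : ofW z = ofW z') : z = z' :=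
  funext fun i => congrArg Prod.snd (congrFun h i)

theorem ofW_zero : ofW (0 : WT g v) = 0 := rfl

variable [Fintype ι]

/-- A matrix acting on tables over the extension. -/
def apM (m : HMx g g') (v : Vtx) : HT g v →ₗ[ℚ] HT g' v :=
  LinearMap.pi fun j => ∑ i, ((hcomp (x := v)).flip (m i j)).comp (LinearMap.proj i)

theorem apM_apply (m : HMx g g') (x : HT g v) (j : ι') :
    apM m v x j = ∑ i, hcomp (x i) (m i j) := by simp [apM]

theorem ops_apM (m : HMx g g') {b : Mx g g'} (hb : ∀ i j, (m i j).1 = b i j) (x : HT g v) :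
    ops (apM m v x) = rap b (ops x) := by
  funext j
  simp [ops, apM_apply, rap_apply, hcomp_apply, Prod.fst_sum, mulB, hb]

theorem apM_ofW (m : HMx g g') {b : Mx g g'} (hb : ∀ i j, (m i j).1 = b i j) (z : WT g v) :
    apM m v (ofW z) = ofW (dW b v z) := by
  funext j
  rw [apM_apply]
  refine Prod.ext ?_ ?_
  · rw [Prod.fst_sum]
    exact Finset.sum_eq_zero fun i _ => by
      rw [hcomp_apply]; exact Subtype.ext (zero_mul _)
  · rw [Prod.snd_sum]
    show _ = dW b v z j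
    rw [dW_apply]
    exact Finset.sum_congr rfl fun i _ => by simp [hcomp_apply, ofW, hb]

theorem apM_mem_of_zero {m : HMx g g'} (hm : ∀ i j, (m i j).1 = 0) (x : HT g v) :
    apM m v x ∈ wpart g' v :=
  mem_wpart.2 fun j => by
    rw [apM_apply, Prod.fst_sum]
    exact Finset.sum_eq_zero fun i _ => by rw [hcomp_apply, hm]; exact Subtype.ext (mul_zero _)

theorem apM_kill {m : HMx g g'} (hm : ∀ i j, (m i j).1 = 0) {x : HT g v} (hx : x ∈ wpart g v) :
    apM m v x = 0 := by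
  funext j
  rw [apM_apply]
  refine Finset.sum_eq_zero fun i _ => ?_
  rw [hcomp_apply, mem_wpart.1 hx i, hm]
  simp [mulB]

theorem apM_wpart (m : HMx g g') {x : HT g v} (hx : x ∈ wpart g v) : apM m v x ∈ wpart g' v :=
  mem_wpart.2 fun j => by
    rw [apM_apply, Prod.fst_sum]
    exact Finset.sum_eq_zero fun i _ => by
      rw [hcomp_apply, mem_wpart.1 hx i]; exact Subtype.ext (zero_mul _)

/-- The product of matrices. -/
def mmul [Fintype ι'] (m : HMx g g') (m' : HMx g' g'') : HMx g g'' :=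
  fun i k => ∑ j, hcomp (m i j) (m' j k)

theorem apM_apM [Fintype ι'] (m : HMx g g') (m' : HMx g' g'') (hv : InWin v)
    (hg : ∀ i, InWin (g i)) (hg' : ∀ i, InWin (g' i)) (hg'' : ∀ i, InWin (g'' i))
    (x : HT g v) : apM m' v (apM m v x) = apM (mmul m m') v x := by
  funext k
  simp only [apM_apply, mmul, map_sum, LinearMap.coe_sum, Finset.sum_apply]
  rw [Finset.sum_comm]
  refine Finset.sum_congr rfl fun i _ => Finset.sum_congr rfl fun j _ => ?_
  obtain ⟨a1, a2, a3, a4⟩ := hv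
  obtain ⟨b1, b2, b3, b4⟩ := hg i
  obtain ⟨c1, c2, c3, c4⟩ := hg' j
  obtain ⟨e1, e2, e3, e4⟩ := hg'' k
  exact hcomp_assoc _ _ _ e3 (by simp only [wt]; omega) (by simp only [wt]; omega)

theorem apM_add (m m' : HMx g g') (x : HT g v) :
    apM (m + m') v x = apM m v x + apM m' v x := by
  funext j
  simp [apM_apply, Finset.sum_add_distrib]

theorem apM_zero (x : HT g v) : apM (0 : HMx g g') v x = 0 := by
  funext j
  simp [apM_apply]

theorem apM_eq_zero_add [Fintype ι'] {ι₂ : Type} [Fintype ι₂] {g₂ : ι₂ → Vtx} (m₁ : HMx g g')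
    (m₁' : HMx g' g'') (m₂ : HMx g g₂) (m₂' : HMx g₂ g'') (h : mmul m₁ m₁' + mmul m₂ m₂' = 0)
    (hv : InWin v) (hg : ∀ i, InWin (g i)) (hg' : ∀ i, InWin (g' i)) (hg₂ : ∀ i, InWin (g₂ i))
    (hg'' : ∀ i, InWin (g'' i)) (x : HT g v) :
    apM m₁' v (apM m₁ v x) + apM m₂' v (apM m₂ v x) = 0 := by
  rw [apM_apM _ _ hv hg hg' hg'', apM_apM _ _ hv hg hg₂ hg'', ← apM_add, h, apM_zero]

end Tables

/-- What the formulas supply. The index `k` is the copy of the source. -/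
structure RData (n : ℤ) extends BCx n where
  win₀ : ∀ i, InWin (g₀ i)
  win₁ : ∀ i, InWin (g₁ i)
  win₂ : ∀ i, InWin (g₂ i)
  win₃ : ∀ i, InWin (g₃ i)
  X : Mx' g₀ g₁
  euler : Euler toBCx X
  D₁ : ℕ → HMx g₁ g₀
  D₂ : ℕ → HMx g₂ g₁
  D₃ : ℕ → HMx g₃ g₂
  P₀ : ℕ → HMx g₀ g₁
  P₁ : ℕ → HMx g₁ g₂
  P₂ : ℕ → HMx g₂ g₃
  Th : ℕ → HMx g₃ g₀
  D₁_fst : ∀ k i j, (D₁ k i j).1 = d₁ i j
  D₂_fst : ∀ k i j, (D₂ k i j).1 = d₂ i j
  D₃_fst : ∀ k i j, (D₃ k i j).1 = d₃ i j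
  P₀_fst : ∀ k i j, (P₀ k i j).1 = 0
  P₀_snd : ∀ k i j, (P₀ k i j).2 = sigma n (X i j)
  P₁_fst : ∀ k i j, (P₁ k i j).1 = 0
  P₂_fst : ∀ k i j, (P₂ k i j).1 = 0
  sq21_zero : mmul (D₂ 0) (D₁ 0) = 0
  sq21 : ∀ k, mmul (D₂ (k + 1)) (D₁ (k + 1)) + mmul (P₂ (k + 1)) (Th k) = 0
  sq32 : ∀ k, mmul (D₃ k) (D₂ k) + mmul (Th k) (P₀ (k + 1)) = 0
  sqP₁ : ∀ k, mmul (P₁ (k + 1)) (D₂ k) + mmul (D₁ (k + 1)) (P₀ (k + 1)) = 0
  sqP₂ : ∀ k, mmul (P₂ (k + 1)) (D₃ k) + mmul (D₂ (k + 1)) (P₁ (k + 1)) = 0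

namespace RData

variable {n : ℤ} (R : RData n) {v : Vtx}

/-- The augmentation at a vertex. -/
def eps (v : Vtx) : HT R.g₀ v →ₗ[ℚ] Y n v where
  toFun x := aug R.toBCx v (ops x)
  map_add' x x' := map_add (aug R.toBCx v) (ops x) (ops x')
  map_smul' c x := map_smul (aug R.toBCx v) c (ops x)

theorem eps_apply (x : HT R.g₀ v) : R.eps v x = aug R.toBCx v (ops x) := rfl

theorem P₀_apply (k : ℕ) (x : HT R.g₀ v) :
    apM (R.P₀ k) v x = ofW (psi R.toBCx R.X v fun i => (x i).1) := by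
  funext j
  rw [apM_apply]
  refine Prod.ext ?_ ?_
  · rw [Prod.fst_sum]
    exact Finset.sum_eq_zero fun i _ => by
      rw [hcomp_apply, R.P₀_fst]; exact Subtype.ext (mul_zero _)
  · rw [Prod.snd_sum]
    show _ = psi R.toBCx R.X v _ j
    refine Finset.sum_congr rfl fun i _ => ?_
    rw [hcomp_apply, R.P₀_fst, R.P₀_snd]
    simp

variable (h0 : R.toBCx.ExactAt v) (h1 : R.toBCx.ExactAt (up v)) (hv : InWin v)

theorem od_le {p : Vtx} (hp : InWin p) (hv : InWin v) : od p v ≤ 2 := by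
  obtain ⟨-, -, h, -⟩ := hp
  obtain ⟨-, -, -, h'⟩ := hv
  simp only [od]
  omega

/-- The glued complex at a vertex. -/
def glue : GlueData ℚ (HT R.g₀ v) (HT R.g₁ v) (HT R.g₂ v) (HT R.g₃ v) (Y n v) where
  S0 := wpart R.g₀ v
  S1 := wpart R.g₁ v
  S2 := wpart R.g₂ v
  S3 := wpart R.g₃ v
  ε := R.eps v
  d1 k := apM (R.D₁ k) v
  d2 k := apM (R.D₂ k) v
  d3 k := apM (R.D₃ k) v
  Ψ0 k := apM (R.P₀ k) v
  Ψ1 k := apM (R.P₁ k) v
  Ψ2 k := apM (R.P₂ k) v
  θ k := apM (R.Th k) v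
  Ψ0_range k x := apM_mem_of_zero (R.P₀_fst k) x
  Ψ1_range k x := apM_mem_of_zero (R.P₁_fst k) x
  Ψ2_range k x := apM_mem_of_zero (R.P₂_fst k) x
  Ψ1_kill k _ hx := apM_kill (R.P₁_fst k) hx
  Ψ2_kill k _ hx := apM_kill (R.P₂_fst k) hx
  θ_S k _ hx := apM_wpart (R.Th k) hx
  d12_zero x := by
    rw [apM_apM _ _ hv R.win₂ R.win₁ R.win₀, R.sq21_zero, apM_zero]
  d12 k x := apM_eq_zero_add _ _ _ _ (R.sq21 k) hv R.win₂ R.win₁ R.win₃ R.win₀ x
  d23 k x := apM_eq_zero_add _ _ _ _ (R.sq32 k) hv R.win₃ R.win₂ R.win₀ R.win₁ x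
  dΨ0 k x := by
    rw [P₀_apply, apM_ofW _ (R.D₁_fst k), dW₁_psi R.euler, ofW_zero]
  dΨ1 k x := apM_eq_zero_add _ _ _ _ (R.sqP₁ k) hv R.win₁ R.win₂ R.win₀ R.win₁ x
  dΨ2 k x := apM_eq_zero_add _ _ _ _ (R.sqP₂ k) hv R.win₂ R.win₃ R.win₁ R.win₂ x
  ε_surj z := by
    obtain ⟨x, hx, rfl⟩ := h0.surj z
    exact ⟨ofOps hx, by rw [eps_apply, ops_ofOps]⟩
  ker_ε k := by
    refine le_antisymm (fun x hx => ?_) (sup_le ?_ fun x hx => ?_)
    · obtain ⟨u, hu, he⟩ := (h0.exact₀ _ (ops_mem x)).1 (R.eps_apply x ▸ LinearMap.mem_ker.1 hx)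
      refine Submodule.mem_sup.2 ⟨_, ⟨ofOps hu, rfl⟩, x - apM (R.D₁ k) v (ofOps hu), ?_,
        add_sub_cancel _ _⟩
      rw [mem_wpart_iff_ops, ops_sub, ops_apM _ (R.D₁_fst k), ops_ofOps, he, sub_self]
    · rintro _ ⟨u, rfl⟩
      rw [LinearMap.mem_ker, eps_apply, ops_apM _ (R.D₁_fst k)]
      exact (h0.exact₀ _ (rap_mem _ (ops_mem u))).2 ⟨_, ops_mem u, rfl⟩
    · rw [LinearMap.mem_ker, eps_apply, mem_wpart_iff_ops.1 hx, map_zero]
  mod1 k x hx := by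
    obtain ⟨u, hu, he⟩ := (h0.exact₁ _ (ops_mem x)).1
      (by rw [← ops_apM _ (R.D₁_fst k)]; exact mem_wpart_iff_ops.1 hx)
    exact ⟨ofOps hu, by
      rw [mem_wpart_iff_ops, ops_sub, ops_apM _ (R.D₂_fst k), ops_ofOps, he, sub_self]⟩
  mod2 k x hx := by
    obtain ⟨u, hu, he⟩ := (h0.exact₂ _ (ops_mem x)).1
      (by rw [← ops_apM _ (R.D₂_fst k)]; exact mem_wpart_iff_ops.1 hx)
    exact ⟨ofOps hu, by
      rw [mem_wpart_iff_ops, ops_sub, ops_apM _ (R.D₃_fst k), ops_ofOps, he, sub_self]⟩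
  mod3 k x hx :=
    mem_wpart_iff_ops.2 (h0.inj₃ _ (ops_mem x)
      (by rw [← ops_apM _ (R.D₃_fst k)]; exact mem_wpart_iff_ops.1 hx))
  sub0 k x hx := by
    obtain ⟨u, hu⟩ := surjective_dW₁ h0 h1 (fun i => od_le (R.win₀ i) hv)
      (fun i => od_le (R.win₁ i) hv) fun i => (x i).2
    exact ⟨ofW u, ofW_mem u, by rw [apM_ofW _ (R.D₁_fst k), hu, ← eq_ofW hx]⟩
  sub1 k x hx h := by
    rw [eq_ofW hx, apM_ofW _ (R.D₁_fst k)] at h
    obtain ⟨x₀, u, he⟩ := cycle_eq h0 h1 (fun i => od_le (R.win₀ i) hv)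
      (fun i => od_le (R.win₁ i) hv) R.euler (ofW_inj (h.trans ofW_zero.symm))
    refine ⟨fun i => (x₀ i, 0), ofW u, ofW_mem u, ?_⟩
    rw [P₀_apply, apM_ofW _ (R.D₂_fst k), ← ofW_add, eq_ofW hx, he]
  sub2 k x hx h := by
    rw [eq_ofW hx, apM_ofW _ (R.D₂_fst k)] at h
    obtain ⟨u, hu⟩ := (exact_dW₂ h0 h1 (fun i => od_le (R.win₀ i) hv)
      (fun i => od_le (R.win₁ i) hv) _).1 (ofW_inj (h.trans ofW_zero.symm))
    exact ⟨ofW u, ofW_mem u, by rw [apM_ofW _ (R.D₃_fst k), hu, ← eq_ofW hx]⟩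
  sub3 k x hx h := by
    rw [eq_ofW hx, apM_ofW _ (R.D₃_fst k)] at h
    rw [eq_ofW hx, injective_dW₃ h0 h1 (fun i => od_le (R.win₀ i) hv)
      (fun i => od_le (R.win₁ i) hv) ((ofW_inj (h.trans ofW_zero.symm)).trans (map_zero _).symm),
      ofW_zero]
  connect k x u hu h := by
    rw [eq_ofW hu, apM_ofW _ (R.D₂_fst k), P₀_apply] at h
    exact psi_boundary h0 h1 (fun i => od_le (R.win₀ i) hv) (fun i => od_le (R.win₁ i) hv)
      R.euler _ ⟨_, ofW_inj h⟩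

end RData

end Vale.Agent.P195.ResX
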