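import Vale.Agent.P195.ResX.Bind
import Vale.Agent.P195.BRes.Maps

/-!
# P195: the matrices of `bcx`, in the coordinates of `BRes`

A table on a generator type becomes a sequence supported in its range; `rap_d₁` to `rap_d₃` say
that the matrices act as the maps of `BRes/Maps`.
-/

noncomputable section

namespace Vale.Agent.P195.Res

open ResR ResR.Gen ResX

set_option linter.unusedSimpArgs false

variable {N m : ℕ}

/-- A table on `Fin m` as a sequence starting at `off`. -/
def toTb (off : ℕ) (f : Fin m → Op) : BRes.Tb := fun i =>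
  if h : off ≤ i ∧ i - off < m then f ⟨i - off, h.2⟩ else 0

theorem toTb_add (off : ℕ) (f : Fin m → Op) (i : Fin m) : toTb off f (i.val + off) = f i := by
  unfold toTb
  rw [dif_pos ⟨by omega, by omega⟩]
  congr 1
  exact Fin.ext (by simp)

theorem toTb_succ (f : Fin m → Op) (i : Fin m) : toTb 1 f (i.val + 1) = f i := toTb_add 1 f i

theorem toTb_zero (f : Fin m → Op) (i : Fin m) : toTb 0 f i.val = f i := by
  simpa using toTb_add 0 f i

theorem toTb_supp (off : ℕ) (f : Fin m → Op) {i : ℕ} (h : i < off ∨ off + m ≤ i) :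
    toTb off f i = 0 := dif_neg (by omega)

theorem toTb_eq (off : ℕ) {u : BRes.Tb} (h : ∀ i, i < off ∨ off + m ≤ i → u i = 0) :
    toTb off (fun i : Fin m => u (i.val + off)) = u := by
  funext i
  unfold toTb
  split_ifs with hi
  · simp only
    rw [show i - off + off = i by omega]
  · exact (h i (by omega)).symm

/-- One entry of a sum over a range. -/
theorem sum_pick (off : ℕ) (f : Fin m → Op) (c : ℕ → Op) (j : ℕ) :
    ∑ i : Fin m, f i * (if i.val + off = j then c (i.val + off) else 0) = toTb off f j * c j := by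
  by_cases hj : off ≤ j ∧ j - off < m
  · rw [Finset.sum_eq_single ⟨j - off, hj.2⟩ (fun i _ hi => by
      rw [if_neg (fun e => hi (Fin.ext (by simp only; omega))), mul_zero]) (by simp),
      if_pos (by simp only; omega)]
    conv_rhs => rw [show j = (⟨j - off, hj.2⟩ : Fin m).val + off by simp only; omega, toTb_add]
  · rw [Finset.sum_eq_zero fun i _ => ?_, toTb, dif_neg hj, zero_mul]
    rw [if_neg (by omega), mul_zero]

theorem mul_neg' (f g : Op) : f * -g = -(f * g) := mul_neg f g

/-! ### Entries -/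

theorem v_apply_valid {h : Gen} (hh : h.Valid N) (c : Op) (g : Gen) :
    (c • v N g) h = if g = h then c else 0 := by
  unfold v
  by_cases hg : g.Valid N
  · rw [if_pos hg, Finsupp.smul_apply, Finsupp.single_apply]
    split_ifs <;> simp
  · rw [if_neg hg, smul_zero, Finsupp.zero_apply,
      if_neg fun (e : g = h) => hg (by rw [e]; exact hh)]

theorem one_apply_valid {h : Gen} (hh : h.Valid N) (g : Gen) :
    v N g h = if g = h then 1 else 0 := by
  simpa using v_apply_valid hh 1 g

/-- The `r` part of a table at level one. -/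
def tr (x : G1 N → Op) : BRes.Tb := toTb 0 fun i : Fin (N + 1) => x (.inl i)

/-- The `rho` parts of a table at level one. -/
def tp (x : G1 N → Op) : BRes.Tb × BRes.Tb :=
  (toTb 1 fun i : Fin (N - 1) => x (.inr (0, i)), toTb 1 fun i : Fin (N - 1) => x (.inr (1, i)))

/-- The `q` parts of a table at level two. -/
def tq (x : G2 N → Op) : BRes.Tb × BRes.Tb :=
  (toTb 0 fun i : Fin N => x (.inl (0, i)), toTb 0 fun i : Fin N => x (.inl (1, i)))

/-- The `s` part of a table at level two. -/
def ts (x : G2 N → Op) : BRes.Tb := toTb 1 fun i : Fin (N - 2) => x (.inr i)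

/-- The part at level three. -/
def tt (x : G3 N → Op) : BRes.Tb := toTb 0 x

theorem rap_d₁ (x : G1 N → Op) (j : G0 N) :
    rap (bcx N).d₁ x j = BRes.v N (tr x) (j.val + 1) + BRes.h1 N (tp x) (j.val + 1) := by
  have hj : (gen0 j).Valid N := gen0_valid j
  show ∑ g : G1 N, x g * dRow N (gen1 g) (gen0 j) = _
  simp only [gen0] at hj ⊢
  rw [Fintype.sum_sum_type, Fintype.sum_prod_type, Fin.sum_univ_two, BRes.v_apply, BRes.h1_apply,
    if_pos (show 1 ≤ j.val + 1 ∧ j.val + 1 ≤ N from hj),
    if_pos (show 1 ≤ j.val + 1 ∧ j.val + 1 ≤ N from hj)]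
  refine congrArg₂ (· + ·) ?_ (congrArg₂ (· + ·) ?_ ?_)
  · simp only [gen1, dRow, Finsupp.sub_apply, v_apply_valid hj, Gen.e.injEq, mul_sub,
      Finset.sum_sub_distrib, Nat.add_sub_cancel, tr]
    congr 1
    · simpa using sum_pick 0 (fun i : Fin (N + 1) => x (.inl i)) (fun _ => X₀) j.val
    · simpa using sum_pick 0 (fun i : Fin (N + 1) => x (.inl i)) (fun _ => X₁) (j.val + 1)
  · simp only [gen1, dRow, v_apply_valid hj, Gen.e.injEq, Nat.add_sub_cancel, tp]
    have h := sum_pick 1 (fun i : Fin (N - 1) => x (.inr (0, i)))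
      (fun i => D₀ * X₀ + (i : ℚ) • 1) j.val
    simpa [mul_add] using h
  · simp only [gen1, dRow, Finsupp.add_apply, v_apply_valid hj, Gen.e.injEq, mul_add,
      Finset.sum_add_distrib, Nat.add_sub_cancel, tp]
    congr 1
    · simpa using sum_pick 1 (fun i : Fin (N - 1) => x (.inr (1, i))) (fun _ => D₁ * X₀) j.val
    · have h := sum_pick 1 (fun i : Fin (N - 1) => x (.inr (1, i)))
        (fun i => ((N : ℚ) - i) • (1 : Op)) (j.val + 1)
      simpa using h

theorem rap_d₂_r (x : G2 N → Op) (j : Fin (N + 1)) :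
    rap (bcx N).d₂ x (.inl j) = BRes.k1 N (tq x) j.val := by
  have hj : (Gen.r j.val).Valid N := Nat.lt_succ_iff.1 j.isLt
  show ∑ g : G2 N, x g * dRow N (gen2 g) (Gen.r j.val) = _
  rw [Fintype.sum_sum_type, Fintype.sum_prod_type, Fin.sum_univ_two, BRes.k1_apply]
  have hs : (∑ i : Fin (N - 2), x (.inr i) * dRow N (gen2 (.inr i)) (Gen.r j.val)) = 0 :=
    Finset.sum_eq_zero fun i _ => by
      simp [gen2, dRow, Finsupp.sub_apply, v_apply_valid hj, one_apply_valid hj]
  rw [hs, add_zero]
  have e : ∀ (c : ℕ → Op) (k : Fin 2) (J : ℕ),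
      ∑ i : Fin N, x (.inl (k, i)) * (if i.val = J then c i.val else 0) =
        toTb 0 (fun i : Fin N => x (.inl (k, i))) J * c J := fun c k J => by
    simpa using sum_pick 0 (fun i : Fin N => x (.inl (k, i))) c J
  have split : ∀ (c : ℕ → Op) (i : ℕ), ((if i = 0 then c i else 0) • v N (Gen.r 0)) (Gen.r j.val) =
      if i = 0 then (if 0 = j.val then c i else 0) else 0 := fun c i => by
    rw [v_apply_valid hj]
    simp only [Gen.r.injEq]
    split_ifs <;> rfl
  simp only [gen2, dRow, Finsupp.sub_apply, v_apply_valid hj, reduceCtorEq, if_false,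
    Gen.r.injEq, zero_sub, sub_zero, mul_sub, mul_neg', Finset.sum_sub_distrib,
    Finset.sum_neg_distrib, tq]
  rcases Nat.eq_zero_or_eq_sub_one_add_one (n := j.val) with hj0 | hj0
  · rw [hj0, if_pos rfl]
    simp only [Nat.add_one_ne_zero, if_false, mul_zero, Finset.sum_const_zero, sub_zero,
      zero_sub, neg_zero, if_true]
    rw [e (fun i => ((N : ℚ) - i) • (1 : Op)) 1 0, e (fun _ => D₀ * X₁) 0 0,
      e (fun _ => D₁ * X₁ - 1) 1 0]
    simp [mul_sub]
    module
  · rw [if_neg (by omega : j.val ≠ 0)]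
    have hne : ¬ 0 = j.val := by omega
    simp only [hne, if_false, mul_zero, Finset.sum_const_zero, sub_zero]
    have e0 : ∀ i : Fin N, (i.val + 1 = j.val) = (i.val = j.val - 1) := fun i => propext (by omega)
    simp only [e0]
    rw [e (fun i => D₀ * X₀ + (i : ℚ) • 1) 0 _, e (fun _ => D₁ * X₀) 1 _,
      e (fun i => ((N : ℚ) - i) • (1 : Op)) 1 _,
      Nat.cast_sub (show 1 ≤ j.val by omega)]
    simp [mul_add]
    module

theorem rap_d₂_rho (x : G2 N → Op) (k : Fin 2) (j : Fin (N - 1)) :
    rap (bcx N).d₂ x (.inr (k, j)) =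
      if k = 0 then BRes.v (N - 1) (tq x).1 (j.val + 1) + (BRes.h2 N (ts x)).1 (j.val + 1)
      else BRes.v (N - 1) (tq x).2 (j.val + 1) + (BRes.h2 N (ts x)).2 (j.val + 1) := by
  have hj : ∀ k, (Gen.rho k (j.val + 1)).Valid N := fun _ => by
    have := j.isLt; simp only [Valid]; omega
  show ∑ g : G2 N, x g * dRow N (gen2 g) (Gen.rho k (j.val + 1)) = _
  rw [Fintype.sum_sum_type, Fintype.sum_prod_type, Fin.sum_univ_two]
  have eq' : ∀ (c : ℕ → Op) (k : Fin 2) (J : ℕ),
      ∑ i : Fin N, x (.inl (k, i)) * (if i.val = J then c i.val else 0) =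
        toTb 0 (fun i : Fin N => x (.inl (k, i))) J * c J := fun c k J => by
    simpa using sum_pick 0 (fun i : Fin N => x (.inl (k, i))) c J
  have es : ∀ (c : ℕ → Op) (J : ℕ),
      ∑ i : Fin (N - 2), x (.inr i) * (if i.val + 1 = J then c (i.val + 1) else 0) =
        toTb 1 (fun i : Fin (N - 2) => x (.inr i)) J * c J :=
    fun c J => sum_pick 1 (fun i : Fin (N - 2) => x (.inr i)) c J
  have es' : ∀ (c : ℕ → Op) (J : ℕ),
      ∑ i : Fin (N - 2), x (.inr i) * (if i.val = J then c (i.val + 1) else 0) =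
        toTb 1 (fun i : Fin (N - 2) => x (.inr i)) (J + 1) * c (J + 1) := fun c J => by
    simpa using es c (J + 1)
  have hvj : 1 ≤ j.val + 1 ∧ j.val + 1 ≤ N - 1 := by have := j.isLt; omega
  have hvj' : 1 ≤ j.val + 1 ∧ j.val + 1 + 1 ≤ N := by omega
  rw [BRes.v_apply, BRes.v_apply, if_pos hvj, if_pos hvj, BRes.h2_fst, BRes.h2_snd, if_pos hvj',
    if_pos hvj']
  fin_cases k
  · simp only [gen2, dRow, Finsupp.sub_apply, v_apply_valid (hj _), reduceCtorEq, if_false,
      Gen.rho.injEq, true_and, false_and, zero_sub, sub_zero, mul_sub, mul_neg', mul_zero,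
      Finset.sum_const_zero, Finset.sum_sub_distrib, Finset.sum_neg_distrib, tq, ts,
      Fin.zero_eta, Fin.isValue, zero_ne_one, one_ne_zero, add_zero, zero_add, Nat.add_sub_cancel,
      if_true, Nat.add_right_cancel_iff]
    rw [eq' (fun _ => X₀) 0, eq' (fun _ => X₁) 0, es (fun _ => D₁ * X₀) j.val,
      es' (fun i => ((N : ℚ) - 1 - i) • (1 : Op)) j.val]
    simp
    module
  · simp only [gen2, dRow, Finsupp.sub_apply, v_apply_valid (hj _), reduceCtorEq, if_false,
      Gen.rho.injEq, true_and, false_and, zero_sub, sub_zero, mul_sub, mul_neg', mul_zero,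
      Finset.sum_const_zero, Finset.sum_sub_distrib, Finset.sum_neg_distrib, tq, ts,
      Fin.mk_one, Fin.isValue, zero_ne_one, one_ne_zero, add_zero, zero_add, Nat.add_sub_cancel,
      if_true, Nat.add_right_cancel_iff]
    rw [eq' (fun _ => X₀) 1, eq' (fun _ => X₁) 1,
      es (fun i => D₀ * X₀ + (i : ℚ) • (1 : Op)) j.val]
    simp [mul_add]

theorem rap_d₃_s (x : G3 N → Op) (j : Fin (N - 2)) :
    rap (bcx N).d₃ x (.inr j) = BRes.v (N - 2) (tt x) (j.val + 1) := by
  have hj : (Gen.s (j.val + 1)).Valid N := by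
    have := j.isLt; simp only [Valid]; omega
  show ∑ g : G3 N, x g * dRow N (gen3 g) (Gen.s (j.val + 1)) = _
  rw [BRes.v_apply, if_pos (by have := j.isLt; omega)]
  have e : ∀ (c : Op) (J : ℕ), ∑ i : Fin (N - 1), x i * (if i.val = J then c else 0) =
      toTb 0 x J * c := fun c J => by simpa using sum_pick 0 x (fun _ => c) J
  simp only [gen3, dRow, Finsupp.sub_apply, Finsupp.add_apply, Finsupp.smul_apply,
    v_apply_valid hj, one_apply_valid hj, reduceCtorEq, if_false, Gen.s.injEq, smul_eq_mul,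
    zero_sub, neg_zero, mul_zero, add_zero, sub_zero, mul_sub, Finset.sum_sub_distrib,
    Nat.add_right_cancel_iff, Nat.add_sub_cancel, tt]
  rw [e, e]

theorem rap_d₃_q (x : G3 N → Op) (k : Fin 2) (j : Fin N) :
    rap (bcx N).d₃ x (.inl (k, j)) =
      if k = 0 then (BRes.k2 N (tt x)).1 j.val else (BRes.k2 N (tt x)).2 j.val := by
  have hj : ∀ k, (Gen.q k j.val).Valid N := fun _ => j.isLt
  show ∑ g : G3 N, x g * dRow N (gen3 g) (Gen.q k j.val) = _
  have e : ∀ (c : ℕ → Op) (J : ℕ), ∑ i : Fin (N - 1), x i * (if i.val = J then c i.val else 0) =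
      toTb 0 x J * c J := fun c J => by simpa using sum_pick 0 x c J
  have hite : ∀ (p : Prop) [Decidable p] (c : Op),
      (if p then (1 : Op) else 0) * c = if p then c else 0 := fun p _ c => by split_ifs <;> simp
  rw [BRes.k2_fst, BRes.k2_snd]
  fin_cases k
  all_goals
    simp only [gen3, dRow, Finsupp.sub_apply, Finsupp.add_apply, Finsupp.smul_apply,
      v_apply_valid (hj _), one_apply_valid (hj _), reduceCtorEq, if_false, Gen.q.injEq,
      smul_eq_mul, true_and, false_and, Fin.zero_eta, Fin.mk_one, Fin.isValue, zero_ne_one,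
      one_ne_zero, zero_sub, sub_zero, neg_zero, add_zero, zero_add, if_true, hite, tt]
    rcases Nat.eq_zero_or_eq_sub_one_add_one (n := j.val) with hj0 | hj0
    · simp only [hj0, Nat.add_one_ne_zero, if_false, if_true, zero_add, sub_zero, zero_sub,
        neg_zero, add_zero]
      try simp only [mul_add, mul_neg', Finset.sum_add_distrib, Finset.sum_neg_distrib]
      first
        | (rw [e (fun i => ((N : ℚ) - 1 - i) • (1 : Op)) 0, e (fun _ => D₁ * X₁ - 1) 0]
           simp [mul_sub]
           module)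
        | rw [e (fun _ => -(D₀ * X₁)) 0, mul_neg']
    · have hne : ¬ 0 = j.val := by omega
      have e0 : ∀ i : Fin (N - 1), (i.val + 1 = j.val) = (i.val = j.val - 1) := fun i =>
        propext (by omega)
      simp only [hne, Ne.symm hne, e0, ite_self, if_false, add_zero, sub_zero, mul_add, mul_neg',
        Finset.sum_add_distrib, Finset.sum_neg_distrib]
      first
        | (rw [e (fun _ => D₁ * X₀) _, e (fun i => ((N : ℚ) - 1 - i) • (1 : Op)) _]
           simp)
        | (rw [e (fun i => D₀ * X₀ + (i : ℚ) • (1 : Op)) _,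
             Nat.cast_sub (show 1 ≤ j.val by omega)]
           simp [mul_add])

end Vale.Agent.P195.Res
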