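import Vale.Agent.P195.ResX.OpsRap
import Vale.Agent.P195.ResR.Square
import Vale.Agent.P195.ResR.Sums
import Vale.Agent.P195.ResExact

/-!
# P195: exactness of `bcx` from exactness in coordinates

`TabExact N a b` is exactness of `BRes` at `(a,b)` on sequences, the augmentation being read off
coefficientwise. `exactAt_of_tab` turns it into `(bcx N).ExactAt (a,b)`; the composites vanish by
`ResR.dd`, and surjectivity of the augmentation is elementary.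
-/

noncomputable section

namespace Vale.Agent.P195.Res

open ResR ResR.Gen ResX

variable {N m : ℕ}

theorem toTb_mem {w k : ℤ} (off hi : ℕ) (f : Fin m → Op) (hf : ∀ i, f i ∈ F w k)
    (hm : off + m ≤ hi + 1) : toTb off f ∈ BRes.Tab off hi w k := fun i => by
  refine ⟨?_, fun h => toTb_supp off f (by omega)⟩
  unfold toTb
  split_ifs
  · exact hf _
  · exact zero_mem _

/-- The coefficient at `(-α, -(N+1-a-α))` of the value of a sequence at level zero. -/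
def coefT (N a : ℕ) (e : BRes.Tb) (α : ℕ) : ℚ :=
  (∑ i ∈ Finset.Icc 1 N, e i (Finsupp.single (-(i : ℤ), -((N : ℤ) + 1 - i)) 1))
    (-(α : ℤ), -((N : ℤ) + 1 - a - α))

/-- Exactness at `(a,b)` in coordinates. -/
structure TabExact (N a b : ℕ) : Prop where
  zero : ∀ e ∈ BRes.Tab 1 N (a : ℤ) b, (∀ α, 1 ≤ α → α + a ≤ N → coefT N a e α = 0) →
    ∃ u x x', u ∈ BRes.Tab 0 N ((a : ℤ) - 1) b ∧ x ∈ BRes.Tab 1 (N - 1) (a : ℤ) ((b : ℤ) - 1) ∧
      x' ∈ BRes.Tab 1 (N - 1) (a : ℤ) ((b : ℤ) - 1) ∧ BRes.v N u + BRes.h1 N (x, x') = e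
  one : ∀ u x x', u ∈ BRes.Tab 0 N ((a : ℤ) - 1) b →
    x ∈ BRes.Tab 1 (N - 1) (a : ℤ) ((b : ℤ) - 1) → x' ∈ BRes.Tab 1 (N - 1) (a : ℤ) ((b : ℤ) - 1) →
    BRes.v N u + BRes.h1 N (x, x') = 0 →
    ∃ q q' g, q ∈ BRes.Tab 0 (N - 1) ((a : ℤ) - 1) ((b : ℤ) - 1) ∧
      q' ∈ BRes.Tab 0 (N - 1) ((a : ℤ) - 1) ((b : ℤ) - 1) ∧
      g ∈ BRes.Tab 1 (N - 2) (a : ℤ) ((b : ℤ) - 2) ∧ BRes.k1 N (q, q') = u ∧
        BRes.v (N - 1) q + (BRes.h2 N g).1 = x ∧ BRes.v (N - 1) q' + (BRes.h2 N g).2 = x'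
  two : ∀ q q' g, q ∈ BRes.Tab 0 (N - 1) ((a : ℤ) - 1) ((b : ℤ) - 1) →
    q' ∈ BRes.Tab 0 (N - 1) ((a : ℤ) - 1) ((b : ℤ) - 1) →
    g ∈ BRes.Tab 1 (N - 2) (a : ℤ) ((b : ℤ) - 2) → BRes.v (N - 1) q + (BRes.h2 N g).1 = 0 →
    BRes.v (N - 1) q' + (BRes.h2 N g).2 = 0 →
    ∃ u, u ∈ BRes.Tab 0 (N - 2) ((a : ℤ) - 1) ((b : ℤ) - 2) ∧ BRes.k2 N u = (q, q') ∧
      BRes.v (N - 2) u = g
  three : ∀ u, u ∈ BRes.Tab 0 (N - 2) ((a : ℤ) - 1) ((b : ℤ) - 2) → BRes.v (N - 2) u = 0 → u = 0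
  /-- the augmentation kills the image -/
  aug_zero : ∀ u x x', u ∈ BRes.Tab 0 N ((a : ℤ) - 1) b →
    x ∈ BRes.Tab 1 (N - 1) (a : ℤ) ((b : ℤ) - 1) → x' ∈ BRes.Tab 1 (N - 1) (a : ℤ) ((b : ℤ) - 1) →
    ∀ α, 1 ≤ α → α + a ≤ N → coefT N a (BRes.v N u + BRes.h1 N (x, x')) α = 0

/-! ### Weights and orders -/

/-- Operators from the vertex `(c,d)` of a generator to `(a,b)`. -/
theorem B_vV (g : Gen) (v : Vtx) :
    B (emb (vV g)) v = F (v.1 - g.vtx.1) (v.2 - (g.vtx.2 : ℤ)) := by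
  rw [emb_vV]

/-! ### Composites -/

theorem rap_rap_dd {ι ι' ι'' : Type} [Fintype ι] [Fintype ι'] {g : ι → Vtx} {g' : ι' → Vtx}
    {g'' : ι'' → Vtx} {l : ℕ} (E : Enum N l ι') (gi : ι → Gen) (gk : ι'' → Gen)
    (hv : ∀ i, (gi i).Valid N) (hl : ∀ i, (gi i).lev = l + 1) (hN : 2 ≤ N) (m₁ : Mx g g')
    (m₂ : Mx g' g'') (h₁ : ∀ i j, (m₁ i j).1 = dRow N (gi i) (E.gen j))
    (h₂ : ∀ j k, (m₂ j k).1 = dRow N (E.gen j) (gk k)) (x : ι → Op) :
    rap m₂ (rap m₁ x) = 0 := by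
  funext k
  simp only [rap_apply, Finset.sum_mul, mul_assoc, Pi.zero_apply, h₁, h₂]
  rw [Finset.sum_comm]
  refine Finset.sum_eq_zero fun i _ => ?_
  rw [← Finset.mul_sum, E.sum_mul (by simpa [hl i] using dRow_lev (N := N) (gi i)) (dRow N)]
  have e := dd hN (gi i)
  rw [d, mat_v' _ (hv i)] at e
  rw [e, Finsupp.zero_apply, mul_zero]

theorem rap_d₁_d₂ (hN : 2 ≤ N) (x : G2 N → Op) :
    rap (bcx N).d₁ (rap (bcx N).d₂ x) = 0 :=
  rap_rap_dd (enum1 N) gen2 gen0 (fun i => (((enum2 N).range _).2 ⟨i, rfl⟩).1)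
    (fun i => (((enum2 N).range _).2 ⟨i, rfl⟩).2) hN _ _ (fun _ _ => rfl) (fun _ _ => rfl) x

theorem rap_d₂_d₃ (hN : 2 ≤ N) (x : G3 N → Op) :
    rap (bcx N).d₂ (rap (bcx N).d₃ x) = 0 :=
  rap_rap_dd (enum2 N) gen3 gen1 (fun i => (((enum3 N).range _).2 ⟨i, rfl⟩).1)
    (fun i => (((enum3 N).range _).2 ⟨i, rfl⟩).2) hN _ _ (fun _ _ => rfl) (fun _ _ => rfl) x

/-! ### The augmentation -/

theorem eps_val (i : G0 N) : (eps N i).1 =
    Finsupp.single (-((i.val + 1 : ℕ) : ℤ), -((N : ℤ) + 1 - ((i.val + 1 : ℕ) : ℤ))) 1 := by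
  simp [eps]

open Classical in
theorem aug_coe (v : Vtx) (x : G0 N → Op) (p : ℤ × ℤ) (hp : p ∈ negSet (nn N + v.1)) :
    (aug (bcx N) v x).1 p = (∑ i : G0 N, x i (eps N i).1) p := by
  have e : (aug (bcx N) v x).1 = (trunc (nn N) v (∑ i : G0 N, x i (eps N i).1)).1 := by
    rw [map_sum]
    rfl
  rw [e, trunc_coe, Finsupp.filter_apply_pos (fun e => e ∈ negSet (nn N + v.1)) _ hp]

theorem coefT_eq (a : ℕ) (x : G0 N → Op) (α : ℕ) :
    coefT N a (toTb 1 x) α =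
      (∑ i : G0 N, x i (eps N i).1) (-(α : ℤ), -((N : ℤ) + 1 - a - α)) := by
  unfold coefT
  congr 1
  refine Finset.sum_bij' (fun i hi => (⟨i - 1, by simp at hi; omega⟩ : Fin N))
    (fun i _ => i.val + 1) (fun _ _ => Finset.mem_univ _)
    (fun i _ => by have := i.isLt; simp) (fun i hi => by simp at hi ⊢; omega)
    (fun i _ => by ext; simp) fun i hi => ?_
  have hi' := Finset.mem_Icc.1 hi
  rw [eps_val]
  simp only [show i - 1 + 1 = i by omega]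
  rw [show toTb 1 x i = x ⟨i - 1, by omega⟩ by unfold toTb; rw [dif_pos ⟨hi'.1, by omega⟩]]

theorem coefT_eq_aug (a b : ℕ) (x : G0 N → Op) (α : ℕ) (h1 : 1 ≤ α) (h2 : α + a ≤ N) :
    coefT N a (toTb 1 x) α =
      (aug (bcx N) ((a : ℤ), (b : ℤ)) x).1 (-(α : ℤ), -((N : ℤ) + 1 - a - α)) := by
  rw [coefT_eq, aug_coe]
  simp only [negSet, nn, Set.mem_ofPred_eq]
  omega

theorem aug_eq_zero_iff (a b : ℕ) (x : G0 N → Op) :
    aug (bcx N) ((a : ℤ), (b : ℤ)) x = 0 ↔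
      ∀ α, 1 ≤ α → α + a ≤ N → coefT N a (toTb 1 x) α = 0 := by
  constructor
  · intro h α h1 h2
    rw [coefT_eq_aug a b x α h1 h2, h]
    rfl
  · intro h
    refine Subtype.ext (Finsupp.ext fun p => ?_)
    by_cases hp : p ∈ negSet (nn N + (a : ℤ))
    · simp only [negSet, nn, Set.mem_ofPred_eq] at hp
      obtain ⟨α, hα⟩ : ∃ α : ℕ, p.1 = -(α : ℤ) := ⟨(-p.1).toNat, by omega⟩
      have he : p = (-(α : ℤ), -((N : ℤ) + 1 - a - α)) := by
        ext <;> simp only <;> omega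
      rw [he, ← coefT_eq_aug a b x α (by omega) (by omega), h α (by omega) (by omega)]
      rfl
    · have hs := (aug (bcx N) ((a : ℤ), (b : ℤ)) x).2
      exact Finsupp.notMem_support_iff.1 fun hm => hp (hs hm)

theorem aug_surj (a b : ℕ) (z : Y (nn N) ((a : ℤ), (b : ℤ))) :
    ∃ x, Mem (bcx N).g₀ ((a : ℤ), (b : ℤ)) x ∧ aug (bcx N) ((a : ℤ), (b : ℤ)) x = z := by
  refine ⟨fun i : G0 N => (z.1 ((a : ℤ) - (i.val + 1), -((N : ℤ) - i.val))) • mono (a, 0, 0, 0),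
    fun (i : G0 N) => Submodule.smul_mem _ _ (mono_mem ⟨?_, ?_⟩), Subtype.ext (Finsupp.ext fun p => ?_)⟩
  · simp [bcx, vg0, emb_vV, vtx, gen0, wt]
  · simp [bcx, vg0, emb_vV, vtx, gen0, od]
  by_cases hp : p ∈ negSet (nn N + (a : ℤ))
  · rw [aug_coe _ _ _ hp]
    simp only [negSet, nn, Set.mem_ofPred_eq] at hp
    rw [Finsupp.finsetSum_apply]
    simp only [LinearMap.smul_apply, eps, mono_single, ff_zero, Finsupp.smul_single,
      Finsupp.single_apply, Prod.ext_iff, smul_eq_mul, mul_one, Nat.cast_zero, sub_zero, add_zero]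
    by_cases hi : 1 ≤ (a : ℤ) - p.1 ∧ (a : ℤ) - p.1 ≤ N
    · rw [Finset.sum_eq_single (⟨((a : ℤ) - p.1 - 1).toNat, by omega⟩ : Fin N)
        (fun j _ hj => if_neg fun h => hj (Fin.ext (by simp only; omega))) (by simp),
        if_pos ⟨by simp only; omega, by simp only; omega⟩]
      congr 1
      ext <;> simp only <;> omega
    · omega
  · rw [Finsupp.notMem_support_iff.1 fun hm => hp (z.2 hm)]
    have hs := (aug (bcx N) ((a : ℤ), (b : ℤ))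
      (fun i : G0 N => (z.1 ((a : ℤ) - (i.val + 1), -((N : ℤ) - i.val))) • mono (a, 0, 0, 0))).2
    exact Finsupp.notMem_support_iff.1 fun hm => hp (hs hm)

/-! ### Tables -/

theorem tabs₁ {a b : ℕ} {x : G1 N → Op} (_hN : 1 ≤ N)
    (hx : Mem (bcx N).g₁ ((a : ℤ), (b : ℤ)) x) :
    tr x ∈ BRes.Tab 0 N ((a : ℤ) - 1) b ∧ (tp x).1 ∈ BRes.Tab 1 (N - 1) (a : ℤ) ((b : ℤ) - 1) ∧
      (tp x).2 ∈ BRes.Tab 1 (N - 1) (a : ℤ) ((b : ℤ) - 1) :=
  ⟨toTb_mem 0 N _ (fun i => by simpa [Mem, bcx, vg1, gen1, B_vV, vtx] using hx (.inl i)) (by omega),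
    toTb_mem 1 (N - 1) _ (fun i => by simpa [Mem, bcx, vg1, gen1, B_vV, vtx] using hx (.inr (0, i)))
      (by omega),
    toTb_mem 1 (N - 1) _ (fun i => by simpa [Mem, bcx, vg1, gen1, B_vV, vtx] using hx (.inr (1, i)))
      (by omega)⟩

theorem tabs₂ {a b : ℕ} {x : G2 N → Op} (hN : 2 ≤ N)
    (hx : Mem (bcx N).g₂ ((a : ℤ), (b : ℤ)) x) :
    (tq x).1 ∈ BRes.Tab 0 (N - 1) ((a : ℤ) - 1) ((b : ℤ) - 1) ∧
      (tq x).2 ∈ BRes.Tab 0 (N - 1) ((a : ℤ) - 1) ((b : ℤ) - 1) ∧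
      ts x ∈ BRes.Tab 1 (N - 2) (a : ℤ) ((b : ℤ) - 2) :=
  ⟨toTb_mem 0 (N - 1) _ (fun i => by simpa [Mem, bcx, vg2, gen2, B_vV, vtx] using hx (.inl (0, i)))
      (by omega),
    toTb_mem 0 (N - 1) _ (fun i => by simpa [Mem, bcx, vg2, gen2, B_vV, vtx] using hx (.inl (1, i)))
      (by omega),
    toTb_mem 1 (N - 2) _ (fun i => by simpa [Mem, bcx, vg2, gen2, B_vV, vtx] using hx (.inr i))
      (by omega)⟩

theorem tt_mem {a b : ℕ} {x : G3 N → Op} (hN : 2 ≤ N)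
    (hx : Mem (bcx N).g₃ ((a : ℤ), (b : ℤ)) x) :
    tt x ∈ BRes.Tab 0 (N - 2) ((a : ℤ) - 1) ((b : ℤ) - 2) :=
  toTb_mem 0 (N - 2) _ (fun i => by simpa [Mem, bcx, vg3, gen3, B_vV, vtx] using hx i) (by omega)

theorem toTb_eq_of_tab (off hi : ℕ) {u : BRes.Tb} {w k : ℤ} (hu : u ∈ BRes.Tab off hi w k)
    (hm : hi + 1 ≤ off + m) : toTb off (fun i : Fin m => u (i.val + off)) = u :=
  toTb_eq off fun i h => (hu i).2 (by omega)

theorem exists_row₁ {a b : ℕ} {u x x' : BRes.Tb} (_hN : 1 ≤ N)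
    (hu : u ∈ BRes.Tab 0 N ((a : ℤ) - 1) b) (hx : x ∈ BRes.Tab 1 (N - 1) (a : ℤ) ((b : ℤ) - 1))
    (hx' : x' ∈ BRes.Tab 1 (N - 1) (a : ℤ) ((b : ℤ) - 1)) :
    ∃ y : G1 N → Op, Mem (bcx N).g₁ ((a : ℤ), (b : ℤ)) y ∧ tr y = u ∧ tp y = (x, x') := by
  refine ⟨Sum.elim (fun i : Fin (N + 1) => u (i.val + 0))
    (fun p : Fin 2 × Fin (N - 1) => if p.1 = 0 then x (p.2.val + 1) else x' (p.2.val + 1)),
    ?_, toTb_eq_of_tab 0 N hu (by omega), Prod.ext ?_ ?_⟩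
  · rintro (i | ⟨k, i⟩)
    · simpa [bcx, vg1, gen1, B_vV, vtx] using (hu i.val).1
    · fin_cases k
      · simpa [bcx, vg1, gen1, B_vV, vtx] using (hx (i.val + 1)).1
      · simpa [bcx, vg1, gen1, B_vV, vtx] using (hx' (i.val + 1)).1
  · simpa [tp] using toTb_eq_of_tab (m := N - 1) 1 (N - 1) hx (by omega)
  · simpa [tp] using toTb_eq_of_tab (m := N - 1) 1 (N - 1) hx' (by omega)

theorem exists_row₂ {a b : ℕ} {q q' g : BRes.Tb} (hN : 2 ≤ N)
    (hq : q ∈ BRes.Tab 0 (N - 1) ((a : ℤ) - 1) ((b : ℤ) - 1))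
    (hq' : q' ∈ BRes.Tab 0 (N - 1) ((a : ℤ) - 1) ((b : ℤ) - 1))
    (hg : g ∈ BRes.Tab 1 (N - 2) (a : ℤ) ((b : ℤ) - 2)) :
    ∃ y : G2 N → Op, Mem (bcx N).g₂ ((a : ℤ), (b : ℤ)) y ∧ tq y = (q, q') ∧ ts y = g := by
  refine ⟨Sum.elim (fun p : Fin 2 × Fin N => if p.1 = 0 then q (p.2.val + 0) else q' (p.2.val + 0))
    (fun i : Fin (N - 2) => g (i.val + 1)), ?_, Prod.ext ?_ ?_,
    toTb_eq_of_tab 1 (N - 2) hg (by omega)⟩
  · rintro (⟨k, i⟩ | i)
    · fin_cases k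
      · simpa [bcx, vg2, gen2, B_vV, vtx] using (hq i.val).1
      · simpa [bcx, vg2, gen2, B_vV, vtx] using (hq' i.val).1
    · simpa [bcx, vg2, gen2, B_vV, vtx] using (hg (i.val + 1)).1
  · simpa [tq] using toTb_eq_of_tab (m := N) 0 (N - 1) hq (by omega)
  · simpa [tq] using toTb_eq_of_tab (m := N) 0 (N - 1) hq' (by omega)

theorem toTb_rap_d₁ (x : G1 N → Op) :
    toTb (m := N) 1 (fun j : G0 N => rap (bcx N).d₁ x j) =
      BRes.v N (tr x) + BRes.h1 N (tp x) := by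
  funext i
  by_cases h : 1 ≤ i ∧ i ≤ N
  · obtain ⟨j, rfl⟩ : ∃ j : Fin N, i = j.val + 1 := ⟨⟨i - 1, by omega⟩, by simp only; omega⟩
    rw [toTb_succ, Pi.add_apply]
    exact rap_d₁ x j
  · rw [toTb_supp (m := N) _ _ (by omega), Pi.add_apply, BRes.v_apply, BRes.h1_apply, if_neg h, if_neg h,
      add_zero]

/-- Exactness of the complex of operators, from exactness in coordinates. -/
theorem exactAt_of_tab {a b : ℕ} (hN : 3 ≤ N) (T : TabExact N a b) :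
    (bcx N).ExactAt ((a : ℤ), (b : ℤ)) where
  surj := aug_surj a b
  exact₀ (x : G0 N → Op) hx := by
    constructor
    · intro h
      obtain ⟨u, y, y', hu, hy, hy', he⟩ := T.zero (toTb 1 x)
        (toTb_mem 1 N _ (fun i => by simpa [bcx, vg0, gen0, B_vV, vtx] using hx i) (by omega))
        ((aug_eq_zero_iff a b x).1 h)
      obtain ⟨z, hz, h₁, h₂⟩ := exists_row₁ (by omega) hu hy hy'
      refine ⟨z, hz, funext fun (j : G0 N) => ?_⟩
      rw [rap_d₁, h₁, h₂, ← Pi.add_apply, he, toTb_succ]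
    · rintro ⟨z, hz, rfl⟩
      refine (aug_eq_zero_iff a b _).2 fun α h1 h2 => ?_
      obtain ⟨hu, hy, hy'⟩ := tabs₁ (by omega) hz
      exact (congrArg (fun e => coefT N a e α) (toTb_rap_d₁ z)).trans
        (T.aug_zero _ _ _ hu hy hy' α h1 h2)
  exact₁ (x : G1 N → Op) hx := by
    constructor
    · intro h
      obtain ⟨hu, hy, hy'⟩ := tabs₁ (by omega) hx
      obtain ⟨q, q', g, hq, hq', hg, e₁, e₂, e₃⟩ := T.one _ _ _ hu hy hy'
        ((toTb_rap_d₁ x).symm.trans (by rw [h]; funext i; unfold toTb; split_ifs <;> rfl))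
      obtain ⟨z, hz, h₁, h₂⟩ := exists_row₂ (by omega) hq hq' hg
      refine ⟨z, hz, funext ?_⟩
      rintro (j | ⟨k, j⟩)
      · rw [rap_d₂_r, h₁, e₁]
        exact toTb_zero (fun i : Fin (N + 1) => x (.inl i)) j
      · rw [rap_d₂_rho, h₁, h₂]
        fin_cases k
        · simp only [Fin.zero_eta, ↓reduceIte, ← Pi.add_apply, e₂]
          exact toTb_succ (fun i : Fin (N - 1) => x (.inr (0, i))) j
        · simp only [Fin.mk_one, one_ne_zero, ↓reduceIte, ← Pi.add_apply, e₃]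
          exact toTb_succ (fun i : Fin (N - 1) => x (.inr (1, i))) j
    · rintro ⟨z, -, rfl⟩
      exact rap_d₁_d₂ (by omega) z
  exact₂ (x : G2 N → Op) hx := by
    constructor
    · intro h
      obtain ⟨hq, hq', hg⟩ := tabs₂ (by omega) hx
      have hrho : ∀ (k : Fin 2) (i : ℕ), (if k = 0
          then BRes.v (N - 1) (tq x).1 i + (BRes.h2 N (ts x)).1 i
          else BRes.v (N - 1) (tq x).2 i + (BRes.h2 N (ts x)).2 i) = 0 := fun k i => by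
        by_cases hi : 1 ≤ i ∧ i ≤ N - 1
        · obtain ⟨j, rfl⟩ : ∃ j : Fin (N - 1), i = j.val + 1 :=
            ⟨⟨i - 1, by omega⟩, by simp only; omega⟩
          rw [← rap_d₂_rho]
          exact congrFun h (.inr (k, j))
        · rw [BRes.v_apply, BRes.v_apply, BRes.h2_fst, BRes.h2_snd, if_neg hi, if_neg hi,
            if_neg (show ¬(1 ≤ i ∧ i + 1 ≤ N) by omega),
            if_neg (show ¬(1 ≤ i ∧ i + 1 ≤ N) by omega), add_zero]
          split_ifs <;> rfl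
      obtain ⟨u, hu, e₁, e₂⟩ := T.two _ _ _ hq hq' hg (funext fun i => by simpa using hrho 0 i)
        (funext fun i => by simpa using hrho 1 i)
      have hz : toTb 0 (fun i : Fin (N - 1) => u (i.val + 0)) = u :=
        toTb_eq_of_tab 0 (N - 2) hu (by omega)
      refine ⟨fun i : G3 N => u (i.val + 0),
        fun (i : G3 N) => by simpa [bcx, vg3, gen3, B_vV, vtx] using (hu i.val).1, funext ?_⟩
      rintro (⟨k, j⟩ | j)
      · rw [rap_d₃_q, show tt (fun i : G3 N => u (i.val + 0)) = u from hz, e₁]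
        fin_cases k
        · simpa [tq] using toTb_zero (fun i : Fin N => x (.inl (0, i))) j
        · simpa [tq] using toTb_zero (fun i : Fin N => x (.inl (1, i))) j
      · rw [rap_d₃_s, show tt (fun i : G3 N => u (i.val + 0)) = u from hz, e₂]
        exact toTb_succ (fun i : Fin (N - 2) => x (.inr i)) j
    · rintro ⟨z, -, rfl⟩
      exact rap_d₂_d₃ (by omega) z
  inj₃ (x : G3 N → Op) hx h := by
    have hv : BRes.v (N - 2) (tt x) = 0 := funext fun i => by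
      by_cases hi : 1 ≤ i ∧ i ≤ N - 2
      · obtain ⟨j, rfl⟩ : ∃ j : Fin (N - 2), i = j.val + 1 :=
          ⟨⟨i - 1, by omega⟩, by simp only; omega⟩
        rw [← rap_d₃_s]
        exact congrFun h (.inr j)
      · rw [BRes.v_apply, if_neg hi]; rfl
    funext i
    have := congrFun (T.three _ (tt_mem (by omega) hx) hv) (i : Fin (N - 1)).val
    rwa [tt, toTb_zero] at this

end Vale.Agent.P195.Res
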