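import Vale.Agent.P195.Coker
import Vale.Agent.P195.Defs
import Vale.Agent.P195.KosW

/-!
# P195: the bimodule applied to the resolution over `B`

`K : BCx n` is a complex of tables of operators with augmentation to `Y n`. If it is exact at
`(a,b)` and at `(a,b+1)`, the complex of `W`-tables at `(a,b)` has no homology in degrees `0, 2, 3`,
and in degree one it is `Y n` through `psi`, given by a `X` with `X d = n - E'`.
-/

noncomputable section

namespace Vale.Agent.P195.ResX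

/-- Matrices of operators: `m i j` goes from `g' j` to `g i`. -/
abbrev Mx {ι ι' : Type} (g : ι → Vtx) (g' : ι' → Vtx) : Type := ∀ i j, B (g' j) (g i)

/-- The complex: generators, their vertices, three matrices and the values of the augmentation. -/
structure BCx (n : ℤ) where
  I₀ : Type
  I₁ : Type
  I₂ : Type
  I₃ : Type
  [fin₀ : Fintype I₀]
  [fin₁ : Fintype I₁]
  [fin₂ : Fintype I₂]
  [fin₃ : Fintype I₃]
  g₀ : I₀ → Vtx
  g₁ : I₁ → Vtx
  g₂ : I₂ → Vtx
  g₃ : I₃ → Vtx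
  d₁ : Mx g₁ g₀
  d₂ : Mx g₂ g₁
  d₃ : Mx g₃ g₂
  y : ∀ i, Y n (g₀ i)

attribute [instance] BCx.fin₀ BCx.fin₁ BCx.fin₂ BCx.fin₃

section Tables

variable {ι ι' : Type} {g : ι → Vtx} {g' : ι' → Vtx} {v : Vtx}

/-- Tables of the right weights and orders at `v`. -/
def Mem (g : ι → Vtx) (v : Vtx) (x : ι → Op) : Prop := ∀ i, x i ∈ B (g i) v

/-- The vertex one level up. -/
abbrev up (v : Vtx) : Vtx := (v.1, v.2 + 1)

theorem Mem_up {x : ι → Op} :
    Mem g (up v) x ↔ ∀ i, x i ∈ F (wt (g i) v) (od (g i) v + 1) := by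
  refine forall_congr' fun i => ?_
  rw [show od (g i) v + 1 = od (g i) (up v) by simp only [od]; ring]

variable [Fintype ι]

/-- A matrix acting on tables. -/
def rap (m : Mx g g') : (ι → Op) →ₗ[ℚ] ι' → Op where
  toFun x j := ∑ i, x i * (m i j).1
  map_add' x x' := funext fun j => by simp [add_mul, Finset.sum_add_distrib]
  map_smul' c x := funext fun j => by simp [Finset.smul_sum]

theorem rap_apply (m : Mx g g') (x : ι → Op) (j : ι') : rap m x j = ∑ i, x i * (m i j).1 := rfl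

theorem rap_mem (m : Mx g g') {x : ι → Op} (h : Mem g v x) : Mem g' v (rap m x) := fun j =>
  sum_mem fun i _ => mul_mem_B (h i) (m i j).2

/-- The complex of four tables. -/
abbrev C4 (g : ι → Vtx) (v : Vtx) : Type := ∀ i, Fin 4 → B (g i) v

/-- The complex of three tables one level up. -/
abbrev C3 (g : ι → Vtx) (v : Vtx) : Type := ∀ i, Tri (g i) v

/-- Tables of classes. -/
abbrev WT (g : ι → Vtx) (v : Vtx) : Type := ∀ i, W (g i) v

/-- A matrix on four tables. -/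
def d4 (m : Mx g g') (v : Vtx) : C4 g v →ₗ[ℚ] C4 g' v where
  toFun x j l := ⟨rap m (fun i => (x i l).1) j, rap_mem m (fun i => (x i l).2) j⟩
  map_add' x x' := by ext j l : 3; simp [rap_apply, add_mul, Finset.sum_add_distrib]
  map_smul' c x := by ext j l : 3; simp [rap_apply, Finset.smul_sum]

/-- A matrix on three tables. -/
def d3 (m : Mx g g') (v : Vtx) : C3 g v →ₗ[ℚ] C3 g' v where
  toFun x j l := ⟨rap m (fun i => (x i l).1) j, sum_mem fun i _ =>
    mul_mem_B_succ_right (x i l).2 (m i j).2⟩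
  map_add' x x' := by ext j l : 3; simp [rap_apply, add_mul, Finset.sum_add_distrib]
  map_smul' c x := by ext j l : 3; simp [rap_apply, Finset.smul_sum]

/-- A matrix on classes. -/
def dW (m : Mx g g') (v : Vtx) : WT g v →ₗ[ℚ] WT g' v :=
  LinearMap.pi fun j => ∑ i, (rmul (m i j)).comp (LinearMap.proj i)

theorem d4_coe (m : Mx g g') (x : C4 g v) (j : ι') (l : Fin 4) :
    (d4 m v x j l).1 = ∑ i, (x i l).1 * (m i j).1 := rfl

theorem d3_coe (m : Mx g g') (x : C3 g v) (j : ι') (l : Fin 3) :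
    (d3 m v x j l).1 = ∑ i, (x i l).1 * (m i j).1 := rfl

theorem dW_apply (m : Mx g g') (z : WT g v) (j : ι') :
    dW m v z j = ∑ i, rmul (m i j) (z i) := by simp [dW]

omit [Fintype ι]

/-- The relations, componentwise. -/
def rho (g : ι → Vtx) (v : Vtx) : C4 g v →ₗ[ℚ] C3 g v :=
  LinearMap.pi fun i => (rel (g i) v).comp (LinearMap.proj i)

/-- Classes, componentwise. -/
def pr (g : ι → Vtx) (v : Vtx) : C3 g v →ₗ[ℚ] WT g v :=
  LinearMap.pi fun i => (cls (g i) v).comp (LinearMap.proj i)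

theorem pr_surjective : Function.Surjective (pr g v) := fun z =>
  ⟨fun i => (Submodule.mkQ_surjective _ (z i)).choose,
    funext fun i => (Submodule.mkQ_surjective _ (z i)).choose_spec⟩

theorem exact_rho_pr : Function.Exact (rho g v) (pr g v) := by
  intro x
  constructor
  · intro h
    choose q hq using fun i => (Submodule.Quotient.mk_eq_zero _).1 (congrFun h i)
    exact ⟨q, funext hq⟩
  · rintro ⟨q, rfl⟩
    exact funext fun i => (Submodule.Quotient.mk_eq_zero _).2 ⟨q i, rfl⟩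

theorem rel_injective {p v : Vtx} (hk : od p v ≤ 2) : Function.Injective (rel p v) :=
  Vale.Agent.P195.rel_injective _ _ hk

theorem rho_injective (hk : ∀ i, od (g i) v ≤ 2) : Function.Injective (rho g v) :=
  fun _ _ h => funext fun i => rel_injective (hk i) (congrFun h i)

variable [Fintype ι]

theorem rho_d4 (m : Mx g g') (x : C4 g v) : d3 m v (rho g v x) = rho g' v (d4 m v x) := by
  ext j l : 3
  rw [d3_coe]
  show ∑ i, ((x i l.castSucc).1 * eul' (g i).1 - (x i l.succ).1) * (m i j).1 =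
    (∑ i, (x i l.castSucc).1 * (m i j).1) * eul' (g' j).1 - ∑ i, (x i l.succ).1 * (m i j).1
  rw [Finset.sum_mul, ← Finset.sum_sub_distrib]
  refine Finset.sum_congr rfl fun i _ => ?_
  rw [sub_mul, mul_assoc, eul'_mul (m i j), mul_assoc]

theorem dW_pr (m : Mx g g') (x : C3 g v) : dW m v (pr g v x) = pr g' v (d3 m v x) := by
  funext j
  rw [dW_apply]
  show ∑ i, rmul (m i j) (cls (g i) v (x i)) = cls (g' j) v (d3 m v x j)
  simp only [rmul_cls, ← map_sum]
  congr 1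
  ext l : 2
  rw [d3_coe]
  simp [rmulTri]

/-- Lifting exactness to tables of tuples. -/
theorem exists_d4 (m : Mx g g') {z : C4 g' v}
    (h : ∀ l, ∃ u, Mem g v u ∧ rap m u = fun j => (z j l).1) : ∃ x, d4 m v x = z := by
  choose u hu he using h
  refine ⟨fun i l => ⟨u l i, hu l i⟩, ?_⟩
  ext j l : 3
  exact congrFun (he l) j

theorem exists_d3 (m : Mx g g') {z : C3 g' v}
    (h : ∀ l, ∃ u, Mem g (up v) u ∧ rap m u = fun j => (z j l).1) : ∃ x, d3 m v x = z := by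
  choose u hu he using h
  refine ⟨fun i l => ⟨u l i, Mem_up.1 (hu l) i⟩, ?_⟩
  ext j l : 3
  exact congrFun (he l) j

theorem d4_eq_zero {m : Mx g g'} {x : C4 g v} :
    d4 m v x = 0 ↔ ∀ l, rap m (fun i => (x i l).1) = 0 :=
  ⟨fun h l => funext fun j => congrArg (fun t => (t j l).1) h,
    fun h => by ext j l : 3; exact congrFun (h l) j⟩

theorem d3_eq_zero {m : Mx g g'} {x : C3 g v} :
    d3 m v x = 0 ↔ ∀ l, rap m (fun i => (x i l).1) = 0 :=
  ⟨fun h l => funext fun j => congrArg (fun t => (t j l).1) h,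
    fun h => by ext j l : 3; exact congrFun (h l) j⟩

end Tables

variable {n : ℤ} (K : BCx n)

/-- The augmentation on tables. -/
def aug (v : Vtx) : (K.I₀ → Op) →ₗ[ℚ] Y n v where
  toFun x := ∑ i, trunc n v (x i (K.y i).1)
  map_add' x x' := by simp [Finset.sum_add_distrib]
  map_smul' c x := by simp [Finset.smul_sum]

theorem aug_apply (v : Vtx) (x : K.I₀ → Op) : aug K v x = ∑ i, trunc n v (x i (K.y i).1) := rfl

/-- Exactness at a vertex. -/
structure BCx.ExactAt (v : Vtx) : Prop where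
  surj : ∀ z : Y n v, ∃ x, Mem K.g₀ v x ∧ aug K v x = z
  exact₀ : ∀ x, Mem K.g₀ v x → (aug K v x = 0 ↔ ∃ u, Mem K.g₁ v u ∧ rap K.d₁ u = x)
  exact₁ : ∀ x, Mem K.g₁ v x → (rap K.d₁ x = 0 ↔ ∃ u, Mem K.g₂ v u ∧ rap K.d₂ u = x)
  exact₂ : ∀ x, Mem K.g₂ v x → (rap K.d₂ x = 0 ↔ ∃ u, Mem K.g₃ v u ∧ rap K.d₃ u = x)
  inj₃ : ∀ x, Mem K.g₃ v x → rap K.d₃ x = 0 → x = 0

/-- The augmentation of four tables. -/
def aug4 (v : Vtx) : C4 K.g₀ v →ₗ[ℚ] Fin 4 → Y n v where
  toFun x l := aug K v fun i => (x i l).1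
  map_add' x x' := funext fun l =>
    map_add (aug K v) (fun i => (x i l).1) fun i => (x' i l).1
  map_smul' c x := funext fun l => map_smul (aug K v) c fun i => (x i l).1

/-- The augmentation of three tables. -/
def aug3 (v : Vtx) : C3 K.g₀ v →ₗ[ℚ] Fin 3 → Y n v where
  toFun x l := aug K v fun i => (x i l).1
  map_add' x x' := funext fun l =>
    map_add (aug K v) (fun i => (x i l).1) fun i => (x' i l).1
  map_smul' c x := funext fun l => map_smul (aug K v) c fun i => (x i l).1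

/-- The relations on `Y`. -/
def rhoY (v : Vtx) : (Fin 4 → Y n v) →ₗ[ℚ] Fin 3 → Y n v :=
  LinearMap.pi fun l =>
    (n : ℚ) • LinearMap.proj (R := ℚ) (φ := fun _ : Fin 4 => Y n v) l.castSucc -
      LinearMap.proj (R := ℚ) (φ := fun _ : Fin 4 => Y n v) l.succ

theorem rhoY_surjective (v : Vtx) : Function.Surjective (rhoY (n := n) v) := by
  intro z
  refine ⟨![0, -z 0, -((n : ℚ) • z 0) - z 1, -((n : ℚ) • ((n : ℚ) • z 0 + z 1)) - z 2], ?_⟩
  funext l
  fin_cases l <;> simp [rhoY, smul_add]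
  all_goals module

theorem eq_of_rhoY {v : Vtx} {z : Fin 4 → Y n v} (h : rhoY v z = 0) (l : Fin 4) :
    z l = ((n : ℚ) ^ (l : ℕ)) • z 0 := by
  have e : ∀ j : Fin 3, z j.succ = (n : ℚ) • z j.castSucc := fun j => by
    have := congrFun h j
    simp [rhoY, sub_eq_zero] at this
    exact this.symm
  have h1 : z 1 = (n : ℚ) • z 0 := e 0
  have h2 : z 2 = (n : ℚ) • z 1 := e 1
  have h3 : z 3 = (n : ℚ) • z 2 := e 2
  fin_cases l <;> simp [h1, h2, h3, pow_succ, smul_smul, mul_assoc]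

theorem eul'_y (i : K.I₀) : eul' (K.g₀ i).1 (K.y i).1 = (n : ℚ) • (K.y i).1 := by
  have h : ∀ x : T, x ∈ Finsupp.supported ℚ ℚ (negSet (n + (K.g₀ i).1)) →
      eul' (K.g₀ i).1 x = (n : ℚ) • x := by
    intro x hx
    rw [Finsupp.supported_eq_span_single] at hx
    refine LinearMap.eqOn_span (g := (n : ℚ) • (LinearMap.id : T →ₗ[ℚ] T)) ?_ hx
    rintro _ ⟨e, he, rfl⟩
    show eul' _ (Finsupp.single e 1) = (n : ℚ) • Finsupp.single e 1
    rw [eul'_single, Finsupp.smul_single, smul_eq_mul]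
    have h' : (e.1 : ℚ) + e.2 = n + (K.g₀ i).1 := by exact_mod_cast he.2.2
    congr 1
    linear_combination h'
  exact h _ (K.y i).2

theorem aug3_rho (v : Vtx) (x : C4 K.g₀ v) : aug3 K v (rho K.g₀ v x) = rhoY v (aug4 K v x) := by
  funext l
  show aug K v (fun i => (x i l.castSucc).1 * eul' (K.g₀ i).1 - (x i l.succ).1) =
    (n : ℚ) • aug K v (fun i => (x i l.castSucc).1) - aug K v fun i => (x i l.succ).1
  simp only [aug_apply, Finset.smul_sum, ← Finset.sum_sub_distrib]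
  refine Finset.sum_congr rfl fun i _ => ?_
  rw [LinearMap.sub_apply, map_sub, Module.End.mul_apply, eul'_y, map_smul, map_smul]

variable {K} {v : Vtx}

/-- The cokernel data at a vertex. -/
def cokerData (h0 : K.ExactAt v) (h1 : K.ExactAt (up v)) (hk₀ : ∀ i, od (K.g₀ i) v ≤ 2)
    (hk₁ : ∀ i, od (K.g₁ i) v ≤ 2) :
    CokerData ℚ (C4 K.g₀ v) (C4 K.g₁ v) (C4 K.g₂ v) (C4 K.g₃ v) (Fin 4 → Y n v)
      (C3 K.g₀ v) (C3 K.g₁ v) (C3 K.g₂ v) (C3 K.g₃ v) (Fin 3 → Y n v)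
      (WT K.g₀ v) (WT K.g₁ v) (WT K.g₂ v) (WT K.g₃ v) where
  d1 := d4 K.d₁ v
  d2 := d4 K.d₂ v
  d3 := d4 K.d₃ v
  ε := aug4 K v
  d1' := d3 K.d₁ v
  d2' := d3 K.d₂ v
  d3' := d3 K.d₃ v
  ε' := aug3 K v
  e1 := dW K.d₁ v
  e2 := dW K.d₂ v
  e3 := dW K.d₃ v
  ρ0 := rho K.g₀ v
  ρ1 := rho K.g₁ v
  ρ2 := rho K.g₂ v
  ρ3 := rho K.g₃ v
  ρY := rhoY v
  π0 := pr K.g₀ v
  π1 := pr K.g₁ v
  π2 := pr K.g₂ v
  π3 := pr K.g₃ v
  exact_ε x := by
    refine ⟨fun h => exists_d4 _ fun l => (h0.exact₀ _ fun i => (x i l).2).1 (congrFun h l), ?_⟩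
    rintro ⟨u, rfl⟩
    funext l
    exact (h0.exact₀ _ (rap_mem _ fun i => (u i l).2)).2 ⟨_, fun i => (u i l).2, rfl⟩
  exact1 x := by
    refine ⟨fun h => exists_d4 _ fun l =>
      (h0.exact₁ _ fun i => (x i l).2).1 (d4_eq_zero.1 h l), ?_⟩
    rintro ⟨u, rfl⟩
    exact d4_eq_zero.2 fun l =>
      (h0.exact₁ _ (rap_mem _ fun i => (u i l).2)).2 ⟨_, fun i => (u i l).2, rfl⟩
  exact2 x := by
    refine ⟨fun h => exists_d4 _ fun l =>
      (h0.exact₂ _ fun i => (x i l).2).1 (d4_eq_zero.1 h l), ?_⟩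
    rintro ⟨u, rfl⟩
    exact d4_eq_zero.2 fun l =>
      (h0.exact₂ _ (rap_mem _ fun i => (u i l).2)).2 ⟨_, fun i => (u i l).2, rfl⟩
  surj_ε z := by
    choose u hu he using fun l => h0.surj (z l)
    exact ⟨fun i l => ⟨u l i, hu l i⟩, funext he⟩
  exact_ε' x := by
    refine ⟨fun h => exists_d3 _ fun l =>
      (h1.exact₀ _ (Mem_up.2 fun i => (x i l).2)).1 (congrFun h l), ?_⟩
    rintro ⟨u, rfl⟩
    funext l
    have hu : Mem K.g₁ (up v) fun i => (u i l).1 := Mem_up.2 fun i => (u i l).2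
    exact (h1.exact₀ _ (rap_mem _ hu)).2 ⟨_, hu, rfl⟩
  exact1' x := by
    refine ⟨fun h => exists_d3 _ fun l =>
      (h1.exact₁ _ (Mem_up.2 fun i => (x i l).2)).1 (d3_eq_zero.1 h l), ?_⟩
    rintro ⟨u, rfl⟩
    refine d3_eq_zero.2 fun l => ?_
    have hu : Mem K.g₂ (up v) fun i => (u i l).1 := Mem_up.2 fun i => (u i l).2
    exact (h1.exact₁ _ (rap_mem _ hu)).2 ⟨_, hu, rfl⟩
  exact2' x := by
    refine ⟨fun h => exists_d3 _ fun l =>
      (h1.exact₂ _ (Mem_up.2 fun i => (x i l).2)).1 (d3_eq_zero.1 h l), ?_⟩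
    rintro ⟨u, rfl⟩
    refine d3_eq_zero.2 fun l => ?_
    have hu : Mem K.g₃ (up v) fun i => (u i l).1 := Mem_up.2 fun i => (u i l).2
    exact (h1.exact₂ _ (rap_mem _ hu)).2 ⟨_, hu, rfl⟩
  inj3' := (injective_iff_map_eq_zero _).2 fun x h => by
    ext i l : 3
    exact congrFun (h1.inj₃ _ (Mem_up.2 fun i => (x i l).2) (d3_eq_zero.1 h l)) i
  surj_ε' z := by
    choose u hu he using fun l => h1.surj (z l)
    exact ⟨fun i l => ⟨u l i, Mem_up.1 (hu l) i⟩, funext he⟩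
  sq0 := aug3_rho K v
  sq1 := rho_d4 _
  sq2 := rho_d4 _
  sq3 := rho_d4 _
  inj0 := rho_injective hk₀
  inj1 := rho_injective hk₁
  sq1' := dW_pr _
  sq2' := dW_pr _
  sq3' := dW_pr _
  coker0 := exact_rho_pr
  coker1 := exact_rho_pr
  coker2 := exact_rho_pr
  coker3 := exact_rho_pr
  onto0 := pr_surjective
  onto1 := pr_surjective
  onto2 := pr_surjective
  onto3 := pr_surjective

/-! ### The class map -/

/-- Coefficients of order one higher. -/
abbrev Mx' {ι ι' : Type} (g : ι → Vtx) (g' : ι' → Vtx) : Type :=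
  ∀ i j, F (wt (g' j) (g i)) (od (g' j) (g i) + 1)

/-- The class of `(X, nX, n²X)`. -/
def sigma (n : ℤ) {u w : Vtx} (X : F (wt u w) (od u w + 1)) : W u w :=
  cls u w fun l => ((n : ℚ) ^ (l : ℕ)) • X

variable (K) in
/-- `X d₁ = n - E'` on the generators in degree zero. -/
def Euler (X : Mx' K.g₀ K.g₁) : Prop :=
  ∀ (x : K.I₀ → Op) j, ∑ i, (∑ k, x k * (X k i).1) * (K.d₁ i j).1 =
    (n : ℚ) • x j - x j * eul' (K.g₀ j).1

variable (K) in
/-- The identification of `Y n` with the homology in degree one. -/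
def psi (X : Mx' K.g₀ K.g₁) (v : Vtx) (x : ∀ i, B (K.g₀ i) v) : WT K.g₁ v :=
  fun j => ∑ i, lmul (x i) (sigma n (X i j))

/-- A representing table. -/
def psiRep (X : Mx' K.g₀ K.g₁) (x : ∀ i, B (K.g₀ i) v) : C3 K.g₁ v := fun j =>
  ∑ i, lmulTri (x i) fun l => ((n : ℚ) ^ (l : ℕ)) • X i j

/-- The four tables with boundary that of `psiRep`. -/
def psiClass (x : ∀ i, B (K.g₀ i) v) : C4 K.g₀ v := fun i l => -(((n : ℚ) ^ (l : ℕ)) • x i)

theorem pr_psiRep (X : Mx' K.g₀ K.g₁) (x : ∀ i, B (K.g₀ i) v) :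
    pr K.g₁ v (psiRep X x) = psi K X v x := by
  funext j
  exact map_sum (cls (K.g₁ j) v) _ _

theorem psiRep_coe (X : Mx' K.g₀ K.g₁) (x : ∀ i, B (K.g₀ i) v) (j : K.I₁) (l : Fin 3) :
    (psiRep X x j l).1 = ((n : ℚ) ^ (l : ℕ)) • ∑ i, (x i).1 * (X i j).1 := by
  simp [psiRep, lmulTri, Finset.smul_sum]

theorem d3_psiRep {X : Mx' K.g₀ K.g₁} (hX : Euler K X) (x : ∀ i, B (K.g₀ i) v) :
    d3 K.d₁ v (psiRep X x) = rho K.g₀ v (psiClass x) := by
  ext j l : 3
  rw [d3_coe]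
  show _ = (psiClass x j l.castSucc).1 * eul' (K.g₀ j).1 - (psiClass x j l.succ).1
  simp only [psiRep_coe, smul_mul_assoc, ← Finset.smul_sum]
  rw [hX (fun i => (x i).1) j]
  simp [psiClass, pow_succ, neg_mul (α := Op)]
  module

theorem aug4_psiClass (x : ∀ i, B (K.g₀ i) v) (l : Fin 4) :
    aug4 K v (psiClass x) l = -(((n : ℚ) ^ (l : ℕ)) • aug K v fun i => (x i).1) := by
  rw [← map_smul, ← map_neg]
  rfl

theorem dW₁_psi {X : Mx' K.g₀ K.g₁} (hX : Euler K X) (x : ∀ i, B (K.g₀ i) v) :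
    dW K.d₁ v (psi K X v x) = 0 := by
  rw [← pr_psiRep, dW_pr, d3_psiRep hX]
  exact exact_rho_pr.apply_apply_eq_zero _

variable (h0 : K.ExactAt v) (h1 : K.ExactAt (up v)) (hk₀ : ∀ i, od (K.g₀ i) v ≤ 2)
  (hk₁ : ∀ i, od (K.g₁ i) v ≤ 2)
include h0 h1 hk₀ hk₁

theorem surjective_dW₁ : Function.Surjective (dW K.d₁ v) :=
  (cokerData h0 h1 hk₀ hk₁).surj₀ (rhoY_surjective v)

theorem exact_dW₂ : Function.Exact (dW K.d₃ v) (dW K.d₂ v) := (cokerData h0 h1 hk₀ hk₁).exact₂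

theorem injective_dW₃ : Function.Injective (dW K.d₃ v) := (cokerData h0 h1 hk₀ hk₁).inj₃

theorem psi_boundary {X : Mx' K.g₀ K.g₁} (hX : Euler K X) (x : ∀ i, B (K.g₀ i) v)
    (h : ∃ u, dW K.d₂ v u = psi K X v x) : aug K v (fun i => (x i).1) = 0 := by
  rw [← pr_psiRep] at h
  have := congrFun (((cokerData h0 h1 hk₀ hk₁).class₁ (d3_psiRep hX x)).1 h) 0
  simpa [cokerData, aug4_psiClass] using this

theorem cycle_eq {X : Mx' K.g₀ K.g₁} (hX : Euler K X) {z : WT K.g₁ v} (hz : dW K.d₁ v z = 0) :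
    ∃ x u, z = dW K.d₂ v u + psi K X v x := by
  obtain ⟨c', c, rfl, hd, hy⟩ := (cokerData h0 h1 hk₀ hk₁).exists_class (s := z) hz
  obtain ⟨x', hx', he⟩ := h0.surj (-(aug4 K v c 0))
  set x : ∀ i, B (K.g₀ i) v := fun i => ⟨x' i, hx' i⟩ with hxdef
  have hdiff : d3 K.d₁ v (c' - psiRep X x) = rho K.g₀ v (c - psiClass x) := by
    rw [map_sub, map_sub, d3_psiRep hX]
    exact congrArg (· - _) hd
  have hzero : aug4 K v (c - psiClass x) = 0 := by
    rw [map_sub]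
    funext l
    have := eq_of_rhoY (show rhoY v (aug4 K v c) = 0 from hy) l
    rw [Pi.sub_apply, aug4_psiClass, hxdef, this]
    simp only [he, smul_neg, neg_neg, sub_self, Pi.zero_apply]
  obtain ⟨u, hu⟩ := ((cokerData h0 h1 hk₀ hk₁).class₁ hdiff).2 hzero
  refine ⟨x, u, ?_⟩
  show pr K.g₁ v c' = _
  rw [show dW K.d₂ v u = pr K.g₁ v (c' - psiRep X x) from hu, map_sub, pr_psiRep, sub_add_cancel]

end Vale.Agent.P195.ResX
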